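import Vale.Agent.Lib.P216.Defs

namespace Vale.Agent.Lib.P216

variable {G : Type*} [Group G]

theorem CyclicallyCovered.of_surjective {H : Type*} [Group H] (f : G →* H)
    (hf : Function.Surjective f) (hG : CyclicallyCovered G) : CyclicallyCovered H := by
  classical
  obtain ⟨S, hS⟩ := hG
  refine ⟨S.image f, fun h => ?_⟩
  obtain ⟨g, rfl⟩ := hf h
  obtain ⟨s, hs, n, hn⟩ := hS g
  refine ⟨f s, Finset.mem_image_of_mem f hs, n, ?_⟩
  have h1 := f.map_isConj hn
  rwa [map_zpow] at h1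

theorem exists_generator_of_zpow_mem (H : Subgroup G) (u : G) :
    ∃ v : H, ∀ n : ℤ, u ^ n ∈ H → ∃ m : ℤ, u ^ n = ((v ^ m : H) : G) := by
  let K : Subgroup (Multiplicative ℤ) := H.comap (zpowersHom G u)
  obtain ⟨⟨e, he⟩, hgen⟩ := (IsCyclic.exists_generator (α := K))
  have he' : u ^ (Multiplicative.toAdd e) ∈ H := by
    simpa [K, Subgroup.mem_comap, zpowersHom_apply] using he
  refine ⟨⟨u ^ (Multiplicative.toAdd e), he'⟩, fun n hn => ?_⟩
  have hnK : Multiplicative.ofAdd n ∈ K := by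
    simpa [K, Subgroup.mem_comap, zpowersHom_apply] using hn
  obtain ⟨m, hm⟩ := Subgroup.mem_zpowers_iff.mp (hgen ⟨Multiplicative.ofAdd n, hnK⟩)
  refine ⟨m, ?_⟩
  have hm' : e ^ m = Multiplicative.ofAdd n := by
    have := congrArg Subtype.val hm
    simpa using this
  have h3 : Multiplicative.toAdd e * m = n := by
    have := congrArg Multiplicative.toAdd hm'
    simpa [mul_comm] using this
  simp only [Subgroup.coe_zpow]
  rw [← zpow_mul, h3]

theorem CyclicallyCovered.subgroup_of_finiteIndex (H : Subgroup G) [H.FiniteIndex]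
    (hG : CyclicallyCovered G) : CyclicallyCovered H := by
  classical
  obtain ⟨S, hS⟩ := hG
  have : Finite (G ⧸ H) := Subgroup.finite_quotient_of_finiteIndex
  have : Fintype (G ⧸ H) := Fintype.ofFinite _
  choose v hv using exists_generator_of_zpow_mem H
  let R : Finset G := Finset.univ.image (fun q : G ⧸ H => (Quotient.out q)⁻¹)
  refine ⟨(R ×ˢ S).image (fun p => v (p.1 * p.2 * p.1⁻¹)), fun x => ?_⟩
  obtain ⟨s, hs, n, hn⟩ := hS (x : G)
  obtain ⟨c, hc⟩ := isConj_iff.mp hn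
  obtain ⟨h', hh'⟩ := QuotientGroup.mk_out_eq_mul H c
  set ρ : G := (Quotient.out (c : G ⧸ H))⁻¹ with hρ
  have hρR : ρ ∈ R := Finset.mem_image_of_mem _ (Finset.mem_univ _)
  have hc2 : c = ρ⁻¹ * (h' : G)⁻¹ := by
    rw [hρ, hh']; group
  have hx : (x : G) = (h' : G) * (ρ * s * ρ⁻¹) ^ n * (h' : G)⁻¹ := by
    have h1 : (x : G) = c⁻¹ * s ^ n * c := by rw [← hc]; group
    rw [h1, conj_zpow, hc2]; group
  have hu : (ρ * s * ρ⁻¹) ^ n ∈ H := by
    have h1 : (ρ * s * ρ⁻¹) ^ n = (h' : G)⁻¹ * x * h' := by rw [hx]; group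
    rw [h1]
    exact H.mul_mem (H.mul_mem (H.inv_mem h'.2) x.2) h'.2
  obtain ⟨m, hm⟩ := hv _ n hu
  refine ⟨v (ρ * s * ρ⁻¹), ?_, m, ?_⟩
  · exact Finset.mem_image.mpr ⟨(ρ, s), Finset.mem_product.mpr ⟨hρR, hs⟩, rfl⟩
  · rw [isConj_iff]
    refine ⟨h'⁻¹, ?_⟩
    apply Subtype.ext
    simp only [Subgroup.coe_mul, Subgroup.coe_inv, inv_inv]
    rw [← hm, hx]; group

theorem not_cyclicallyCovered_int_prod : ¬ CyclicallyCovered (Multiplicative (ℤ × ℤ)) := by
  classical
  rintro ⟨S, hS⟩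
  have hmaps : ∀ i ∈ Finset.range (S.card + 1), ∃ s ∈ S, ∃ n : ℤ,
      Multiplicative.ofAdd ((1 : ℤ), (i : ℤ)) = s ^ n := by
    intro i _
    obtain ⟨s, hs, n, hn⟩ := hS (Multiplicative.ofAdd ((1 : ℤ), (i : ℤ)))
    exact ⟨s, hs, n, by simpa [isConj_iff_eq] using hn⟩
  choose! f hf hf' using hmaps
  obtain ⟨i, hi, j, hj, hij, hfij⟩ := Finset.exists_ne_map_eq_of_card_lt_of_maps_to
    (s := Finset.range (S.card + 1)) (t := S) (by simp) (f := f) (fun i hi => hf i hi)
  obtain ⟨n, hn⟩ := hf' i hi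
  obtain ⟨n', hn'⟩ := hf' j hj
  rw [hfij] at hn
  have h1 := congrArg Multiplicative.toAdd hn
  have h2 := congrArg Multiplicative.toAdd hn'
  simp only [toAdd_ofAdd, toAdd_zpow, Prod.ext_iff, Prod.smul_fst, Prod.smul_snd,
    smul_eq_mul] at h1 h2
  obtain ⟨h1a, h1b⟩ := h1
  obtain ⟨h2a, h2b⟩ := h2
  have ha : (Multiplicative.toAdd (f j)).1 ≠ 0 := by
    intro h0; rw [h0] at h1a; simp at h1a
  have hnn : n = n' := by
    have : n * (Multiplicative.toAdd (f j)).1 = n' * (Multiplicative.toAdd (f j)).1 := by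
      rw [← h1a, ← h2a]
    exact mul_right_cancel₀ ha this
  apply hij
  have : (i : ℤ) = j := by rw [h1b, h2b, hnn]
  exact_mod_cast this

theorem not_surjective_of_cyclicallyCovered (hG : CyclicallyCovered G) (H : Subgroup G)
    [H.FiniteIndex] (f : H →* Multiplicative (ℤ × ℤ)) : ¬ Function.Surjective f :=
  fun hf => not_cyclicallyCovered_int_prod ((hG.subgroup_of_finiteIndex H).of_surjective f hf)

theorem exists_finiteIndex_zpowers_of_comm {A : Type*} [CommGroup A]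
    (hA : CyclicallyCovered A) : ∃ a : A, (Subgroup.zpowers a).FiniteIndex := by
  classical
  obtain ⟨S, hS⟩ := hA
  have hS' : ∀ g : A, ∃ s ∈ S, g ∈ Subgroup.zpowers s := by
    intro g
    obtain ⟨s, hs, n, hn⟩ := hS g
    exact ⟨s, hs, Subgroup.mem_zpowers_iff.mpr ⟨n, by simpa [isConj_iff_eq] using hn.symm⟩⟩
  by_cases hfin : ∀ s ∈ S, IsOfFinOrder s
  · have : Finite A := by
      rw [← Set.finite_univ_iff]
      apply Set.Finite.subset
        (Set.Finite.biUnion S.finite_toSet (fun s hs => (hfin s hs).finite_zpowers))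
      intro g _
      obtain ⟨s, hs, hg⟩ := hS' g
      exact Set.mem_biUnion (Finset.mem_coe.mpr hs) hg
    exact ⟨1, Subgroup.finiteIndex_of_finite⟩
  · push Not at hfin
    obtain ⟨s₁, hs₁, hinf⟩ := hfin
    refine ⟨s₁, ?_⟩
    have claim : ∀ s ∈ S, ∃ e : ℤ, e ≠ 0 ∧ s ^ e ∈ Subgroup.zpowers s₁ := by
      intro s hs
      have hmaps : ∀ n ∈ Finset.range (S.card + 1), ∃ w ∈ S, ∃ p : ℤ,
          w ^ p = s₁ * s ^ (n : ℤ) := by
        intro n _
        obtain ⟨w, hw, hmem⟩ := hS' (s₁ * s ^ (n : ℤ))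
        exact ⟨w, hw, Subgroup.mem_zpowers_iff.mp hmem⟩
      choose! f hf hf' using hmaps
      obtain ⟨i, hi, j, hj, hij, hfij⟩ := Finset.exists_ne_map_eq_of_card_lt_of_maps_to
        (s := Finset.range (S.card + 1)) (t := S) (by simp) (f := f) (fun i hi => hf i hi)
      obtain ⟨p, hp⟩ := hf' i hi
      obtain ⟨q, hq⟩ := hf' j hj
      rw [hfij] at hp
      have hd : ((i : ℤ) - j) ≠ 0 := by
        intro h; apply hij; omega
      have h1 : s ^ ((i : ℤ) - j) = (f j) ^ (p - q) := by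
        rw [zpow_sub, zpow_sub, hp, hq, mul_inv, mul_mul_mul_comm, mul_inv_cancel, one_mul]
      have h3 : s₁ = (f j) ^ p * (s ^ (i : ℤ))⁻¹ := by rw [hp]; simp
      have h2 : s₁ ^ ((i : ℤ) - j) = (f j) ^ (p * ((i : ℤ) - j) - i * (p - q)) := by
        have h4 : ((s ^ (i : ℤ))⁻¹) ^ ((i : ℤ) - j) = ((f j) ^ (p - q)) ^ (-(i : ℤ)) := by
          rw [← h1, ← zpow_mul, ← zpow_neg, ← zpow_mul]
          congr 1; ring
        conv_lhs => rw [h3]
        rw [mul_zpow, h4, ← zpow_mul, ← zpow_mul, ← zpow_add]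
        congr 1; ring
      have ha : p * ((i : ℤ) - j) - i * (p - q) ≠ 0 := by
        intro h0
        rw [h0, zpow_zero] at h2
        exact hinf (isOfFinOrder_iff_zpow_eq_one.mpr ⟨_, hd, h2⟩)
      refine ⟨((i : ℤ) - j) * (p * ((i : ℤ) - j) - i * (p - q)), mul_ne_zero hd ha, ?_⟩
      rw [zpow_mul, h1, ← zpow_mul, mul_comm, zpow_mul, ← h2, ← zpow_mul]
      exact Subgroup.zpow_mem_zpowers _ _
    have hQ : Finite (A ⧸ Subgroup.zpowers s₁) := by
      rw [← Set.finite_univ_iff]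
      have hfo : ∀ s ∈ S, IsOfFinOrder (QuotientGroup.mk s : A ⧸ Subgroup.zpowers s₁) := by
        intro s hs
        obtain ⟨e, he, hmem⟩ := claim s hs
        refine isOfFinOrder_iff_zpow_eq_one.mpr ⟨e, he, ?_⟩
        rw [← QuotientGroup.mk_zpow]
        exact (QuotientGroup.eq_one_iff _).mpr hmem
      apply Set.Finite.subset
        (Set.Finite.biUnion S.finite_toSet (fun s hs => (hfo s hs).finite_zpowers))
      intro x _
      induction x using QuotientGroup.induction_on with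
      | H g =>
        obtain ⟨s, hs, hg⟩ := hS' g
        obtain ⟨k, rfl⟩ := Subgroup.mem_zpowers_iff.mp hg
        refine Set.mem_biUnion (Finset.mem_coe.mpr hs) ?_
        rw [QuotientGroup.mk_zpow]
        exact Subgroup.zpow_mem_zpowers _ _
    exact Subgroup.finiteIndex_of_finite_quotient

end Vale.Agent.Lib.P216
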