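import Mathlib

namespace Vale.Agent.Lib.P216

/-- `G` is a finite union of conjugates of cyclic subgroups: there is a finite set `S`
such that every element of `G` is conjugate to an integer power of an element of `S`. -/
def CyclicallyCovered (G : Type*) [Group G] : Prop :=
  ∃ S : Finset G, ∀ g : G, ∃ s ∈ S, ∃ n : ℤ, IsConj g (s ^ n)

end Vale.Agent.Lib.P216
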