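import Vale.Agent.Lib.P216.Basic

namespace Vale.Agent.Lib.P216

variable {n : ℕ}

/-- An action of `ℤ` on `ℤ^n` by additive maps is periodic modulo `2`. -/
theorem exists_period_mod_two (F : ℤ → (Fin n → ℤ) →+ (Fin n → ℤ))
    (hmul : ∀ a b x, F (a + b) x = F a (F b x)) (h0 : ∀ x, F 0 x = x) :
    ∃ m : ℕ, 0 < m ∧ ∀ v, ∃ c : Fin n → ℤ, F (m : ℤ) v = v + (2 : ℤ) • c := by
  classical
  let Φ : ℕ → (Fin n → ℤ) →+ (Fin n → ZMod 2) := fun k =>
    ((Int.castAddHom (ZMod 2)).compLeft (Fin n)).comp (F (k : ℤ))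
  let Ψ : ℕ → (Fin n → Fin n → ZMod 2) := fun k i => Φ k (Pi.single i 1)
  have key : ∀ k1 k2 : ℕ, k1 < k2 → Ψ k1 = Ψ k2 →
      ∃ m : ℕ, 0 < m ∧ ∀ v, ∃ c : Fin n → ℤ, F (m : ℤ) v = v + (2 : ℤ) • c := by
    intro k1 k2 hlt hΨ
    have hΦ : Φ k1 = Φ k2 := by
      apply AddMonoidHom.functions_ext
      intro i x
      have hx : (Pi.single i x : Fin n → ℤ) = x • Pi.single i (1 : ℤ) := by
        ext l
        simp [Pi.single_apply]
      rw [hx, map_zsmul, map_zsmul]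
      exact congrArg (fun z => x • z) (congrFun hΨ i)
    refine ⟨k2 - k1, Nat.sub_pos_of_lt hlt, fun u => ?_⟩
    have h1 := DFunLike.congr_fun hΦ (F (-(k1 : ℤ)) u)
    have h2 : F (k1 : ℤ) (F (-(k1 : ℤ)) u) = u := by
      rw [← hmul, add_neg_cancel, h0]
    have h3 : F (k2 : ℤ) (F (-(k1 : ℤ)) u) = F ((k2 - k1 : ℕ) : ℤ) u := by
      rw [← hmul]
      congr 2
      push_cast [Nat.cast_sub hlt.le]
      ring
    simp only [Φ, AddMonoidHom.comp_apply] at h1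
    rw [h2, h3] at h1
    have h4 : ∀ i, ∃ d : ℤ, F ((k2 - k1 : ℕ) : ℤ) u i = u i + 2 * d := by
      intro i
      have h5 := congrFun h1 i
      simp only [AddMonoidHom.compLeft_apply, Function.comp_apply, Int.coe_castAddHom] at h5
      obtain ⟨d, hd⟩ := (ZMod.intCast_eq_intCast_iff_dvd_sub _ _ 2).mp h5
      exact ⟨d, by push_cast at hd; linarith⟩
    choose c hc using h4
    exact ⟨c, funext fun i => by simp [hc i]⟩
  obtain ⟨k1, k2, hne, hΨ⟩ := Finite.exists_ne_map_eq_of_infinite Ψ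
  rcases Nat.lt_or_gt_of_ne hne with h | h
  · exact key k1 k2 h hΨ
  · exact key k2 k1 h hΨ.symm

/-- Squaring lifts a period modulo `2 ^ (e + 1)` to a period modulo `2 ^ (e + 2)`. -/
theorem lift_period (F : ℤ → (Fin n → ℤ) →+ (Fin n → ℤ))
    (hmul : ∀ a b x, F (a + b) x = F a (F b x)) (m : ℕ)
    (hm : ∀ v, ∃ c : Fin n → ℤ, F (m : ℤ) v = v + (2 : ℤ) • c) (e : ℕ) :
    ∀ v, ∃ c : Fin n → ℤ, F ((m * 2 ^ e : ℕ) : ℤ) v = v + ((2 : ℤ) ^ (e + 1)) • c := by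
  induction e with
  | zero =>
    intro v
    obtain ⟨c, hc⟩ := hm v
    exact ⟨c, by simpa using hc⟩
  | succ e ih =>
    intro v
    obtain ⟨c, hc⟩ := ih v
    obtain ⟨c', hc'⟩ := ih c
    refine ⟨c + (2 : ℤ) ^ e • c', ?_⟩
    have hidx : ((m * 2 ^ (e + 1) : ℕ) : ℤ)
        = ((m * 2 ^ e : ℕ) : ℤ) + ((m * 2 ^ e : ℕ) : ℤ) := by
      push_cast
      ring
    rw [hidx, hmul, hc, map_add, map_zsmul, hc, hc']
    ext i
    simp only [Pi.add_apply, Pi.smul_apply, smul_eq_mul]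
    ring

/-- A period `L` modulo `M` gives periods `L * q` modulo `M` for all integers `q`. -/
theorem period_mul (F : ℤ → (Fin n → ℤ) →+ (Fin n → ℤ))
    (hmul : ∀ a b x, F (a + b) x = F a (F b x)) (h0 : ∀ x, F 0 x = x) (L M : ℤ)
    (hL : ∀ v, ∃ c : Fin n → ℤ, F L v = v + M • c) (q : ℤ) :
    ∀ v, ∃ c : Fin n → ℤ, F (L * q) v = v + M • c := by
  have hneg : ∀ v, ∃ c : Fin n → ℤ, F (-L) v = v + M • c := by
    intro v
    obtain ⟨c, hc⟩ := hL (F (-L) v)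
    refine ⟨-c, ?_⟩
    have h1 : F L (F (-L) v) = v := by rw [← hmul, add_neg_cancel, h0]
    rw [h1] at hc
    rw [smul_neg]
    exact eq_add_neg_of_add_eq hc.symm
  refine Int.induction_on q ?_ ?_ ?_
  · intro v
    exact ⟨0, by simp [h0]⟩
  · intro i ih v
    obtain ⟨c1, h1⟩ := hL v
    obtain ⟨c2, h2⟩ := ih (F L v)
    refine ⟨c1 + c2, ?_⟩
    rw [show L * ((i : ℤ) + 1) = L * (i : ℤ) + L by ring, hmul, h2, h1, smul_add, add_assoc]
  · intro i ih v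
    obtain ⟨c1, h1⟩ := hneg v
    obtain ⟨c2, h2⟩ := ih (F (-L) v)
    refine ⟨c1 + c2, ?_⟩
    rw [show L * (-(i : ℤ) - 1) = L * (-(i : ℤ)) + -L by ring, hmul, h2, h1, smul_add,
      add_assoc]

/-- Modulo `M`, the orbit point `F k w` only depends on `k` modulo the period `L`. -/
theorem congr_of_emod_eq (F : ℤ → (Fin n → ℤ) →+ (Fin n → ℤ))
    (hmul : ∀ a b x, F (a + b) x = F a (F b x)) (h0 : ∀ x, F 0 x = x) (L M : ℤ)
    (hL : ∀ v, ∃ c : Fin n → ℤ, F L v = v + M • c) (k1 k2 : ℤ) (h : k1 % L = k2 % L)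
    (w : Fin n → ℤ) : ∃ c : Fin n → ℤ, F k1 w = F k2 w + M • c := by
  have hdvd : L ∣ k1 - k2 := Int.ModEq.dvd (show k2 ≡ k1 [ZMOD L] from h.symm)
  obtain ⟨q, hq⟩ := hdvd
  obtain ⟨c, hc⟩ := period_mul F hmul h0 L M hL q w
  refine ⟨F k2 c, ?_⟩
  rw [show k1 = k2 + L * q by linarith, hmul, hc, map_add, map_zsmul]

/-- Core: if `ℤ` acts on `ℤ^n` by additive maps and `n ≥ 2` (witnessed by two distinct
indices), then for every finite set `W` some vector is not an integer multiple of any point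
of the orbits of `W`. -/
theorem exists_not_on_orbit_lines (i0 i1 : Fin n) (h01 : i0 ≠ i1)
    (F : ℤ → (Fin n → ℤ) →+ (Fin n → ℤ))
    (hmul : ∀ a b x, F (a + b) x = F a (F b x)) (h0 : ∀ x, F 0 x = x)
    (W : Finset (Fin n → ℤ)) :
    ∃ ξ : Fin n → ℤ, ∀ w ∈ W, ∀ k j : ℤ, ξ ≠ j • F k w := by
  classical
  by_contra hcon
  push Not at hcon
  obtain ⟨m, hmpos, hm⟩ := exists_period_mod_two F hmul h0
  obtain ⟨e, he⟩ : ∃ e : ℕ, e = m * W.card := ⟨_, rfl⟩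
  have hlift := lift_period F hmul m hm e
  have h2e : m * W.card < 2 ^ e := by
    rw [← he]
    exact Nat.lt_two_pow_self
  let p : ℕ × ℕ → (Fin n → ℤ) := fun x i =>
    if i = i0 then 2 * (x.1 : ℤ) + 1
    else if i = i1 then 1 + (2 * (x.1 : ℤ) + 1) * (x.2 : ℤ) else 0
  have hp0 : ∀ x, p x i0 = 2 * (x.1 : ℤ) + 1 := fun x => by simp [p]
  have hp1 : ∀ x, p x i1 = 1 + (2 * (x.1 : ℤ) + 1) * (x.2 : ℤ) := fun x => by
    simp [p, h01.symm]
  choose w hw k j hj using fun x => hcon (p x)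
  have hunit : ∀ x, j x = 1 ∨ j x = -1 := by
    intro x
    have ha := congrFun (hj x) i0
    have hb := congrFun (hj x) i1
    rw [hp0] at ha
    rw [hp1] at hb
    simp only [Pi.smul_apply, smul_eq_mul] at ha hb
    apply Int.eq_one_or_neg_one_of_mul_eq_one
      (v := F (k x) (w x) i1 - F (k x) (w x) i0 * (x.2 : ℤ))
    linear_combination hb.symm - (x.2 : ℤ) * ha.symm
  have hLpos : (0 : ℤ) < ((m * 2 ^ e : ℕ) : ℤ) := by positivity
  let X : Finset (ℕ × ℕ) := Finset.range (2 ^ e) ×ˢ Finset.range (2 ^ (e + 1))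
  let T : Finset (ℤ × ℤ × (Fin n → ℤ)) :=
    Finset.Ico (0 : ℤ) ((m * 2 ^ e : ℕ) : ℤ) ×ˢ ({1, -1} : Finset ℤ) ×ˢ W
  let g : ℕ × ℕ → ℤ × ℤ × (Fin n → ℤ) := fun x => (k x % ((m * 2 ^ e : ℕ) : ℤ), j x, w x)
  have hmaps : ∀ x ∈ X, g x ∈ T := by
    intro x _
    simp only [g, T, Finset.mem_product, Finset.mem_Ico, Finset.mem_insert,
      Finset.mem_singleton]
    exact ⟨⟨Int.emod_nonneg _ hLpos.ne', Int.emod_lt_of_pos _ hLpos⟩, hunit x, hw x⟩
  have hcard : T.card < X.card := by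
    have hT : T.card = 2 ^ e * 2 * (m * W.card) := by
      simp only [T, Finset.card_product, Int.card_Ico, sub_zero, Int.toNat_natCast]
      rw [Finset.card_pair (by norm_num)]
      ring
    have hX : X.card = 2 ^ e * 2 * 2 ^ e := by
      simp only [X, Finset.card_product, Finset.card_range]
      ring
    rw [hT, hX]
    exact Nat.mul_lt_mul_of_pos_left h2e (by positivity)
  obtain ⟨x, hx, y, hy, hxy, hg⟩ := Finset.exists_ne_map_eq_of_card_lt_of_maps_to hcard hmaps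
  have hk : k x % ((m * 2 ^ e : ℕ) : ℤ) = k y % ((m * 2 ^ e : ℕ) : ℤ) :=
    congrArg Prod.fst hg
  have hjj : j x = j y := congrArg (fun z => z.2.1) hg
  have hww : w x = w y := congrArg (fun z => z.2.2) hg
  obtain ⟨c, hc⟩ := congr_of_emod_eq F hmul h0 _ _ hlift (k x) (k y) hk (w x)
  have hpx : p x = p y + ((2 : ℤ) ^ (e + 1)) • (j x • c) := by
    rw [hj x, hj y, hc, ← hjj, ← hww, smul_add, smul_comm (j x) ((2 : ℤ) ^ (e + 1)) c]
  have hx1 : x.1 < 2 ^ e := Finset.mem_range.mp (Finset.mem_product.mp hx).1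
  have hx2 : x.2 < 2 ^ (e + 1) := Finset.mem_range.mp (Finset.mem_product.mp hx).2
  have hy1 : y.1 < 2 ^ e := Finset.mem_range.mp (Finset.mem_product.mp hy).1
  have hy2 : y.2 < 2 ^ (e + 1) := Finset.mem_range.mp (Finset.mem_product.mp hy).2
  have hx1' : (x.1 : ℤ) < 2 ^ e := by exact_mod_cast hx1
  have hx2' : (x.2 : ℤ) < 2 ^ (e + 1) := by exact_mod_cast hx2
  have hy1' : (y.1 : ℤ) < 2 ^ e := by exact_mod_cast hy1
  have hy2' : (y.2 : ℤ) < 2 ^ (e + 1) := by exact_mod_cast hy2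
  have ha := congrFun hpx i0
  have hb := congrFun hpx i1
  rw [Pi.add_apply, hp0, hp0, Pi.smul_apply, smul_eq_mul] at ha
  rw [Pi.add_apply, hp1, hp1, Pi.smul_apply, smul_eq_mul] at hb
  have h1 : (x.1 : ℤ) - y.1 = 0 := by
    apply Int.eq_zero_of_abs_lt_dvd (m := (2 : ℤ) ^ e)
    · refine ⟨(j x • c) i0, ?_⟩
      rw [pow_succ] at ha
      linarith
    · rw [abs_lt]
      constructor <;> linarith [Int.natCast_nonneg x.1, Int.natCast_nonneg y.1]
  have h1' : (x.1 : ℤ) = y.1 := by linarith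
  have h2 : (x.2 : ℤ) - y.2 = 0 := by
    apply Int.eq_zero_of_abs_lt_dvd (m := (2 : ℤ) ^ (e + 1))
    · have hcop : IsCoprime ((2 : ℤ) ^ (e + 1)) (2 * (y.1 : ℤ) + 1) :=
        IsCoprime.pow_left ⟨-(y.1 : ℤ), 1, by ring⟩
      apply hcop.dvd_of_dvd_mul_left
      refine ⟨(j x • c) i1, ?_⟩
      rw [h1'] at hb
      linear_combination hb
    · rw [abs_lt]
      constructor <;> linarith [Int.natCast_nonneg x.2, Int.natCast_nonneg y.2]
  apply hxy
  apply Prod.ext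
  · exact_mod_cast h1'
  · have : (x.2 : ℤ) = y.2 := by linarith
    exact_mod_cast this

end Vale.Agent.Lib.P216
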