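import Vale.Agent.Lib.P216.Torus

namespace Vale.Agent.Lib.P216

/-- A group that is a finite union of conjugates of cyclic subgroups has no finite-index
subgroup `H` of the form `N * ⟨t⟩` with `N` normal in `H` and free abelian of rank `≥ 2`. -/
theorem torus_rank_le_one (G : Type*) [Group G] (hG : CyclicallyCovered G)
    (H : Subgroup G) [H.FiniteIndex] (N : Subgroup H) [N.Normal] (t : H)
    (ht : ∀ h : H, ∃ k : ℤ, h * t ^ k ∈ N) (n : ℕ)
    (e : N ≃* Multiplicative (Fin n → ℤ)) : n ≤ 1 := by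
  classical
  by_contra hn
  push Not at hn
  obtain ⟨S, hS⟩ := hG.subgroup_of_finiteIndex H
  choose v hv using exists_generator_of_zpow_mem N
  have hcomm : ∀ a b : N, a * b = b * a := fun a b =>
    e.injective (by rw [map_mul, map_mul, mul_comm])
  let F : ℤ → (Fin n → ℤ) →+ (Fin n → ℤ) := fun k =>
    AddMonoidHom.mk' (fun x => Multiplicative.toAdd
      (e (MulAut.conjNormal (t ^ k) (e.symm (Multiplicative.ofAdd x))))) (by
        intro a b
        simp only [ofAdd_add, map_mul, toAdd_mul])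
  have hF : ∀ k x, F k x = Multiplicative.toAdd
      (e (MulAut.conjNormal (t ^ k) (e.symm (Multiplicative.ofAdd x)))) := fun _ _ => rfl
  have hmul : ∀ a b x, F (a + b) x = F a (F b x) := by
    intro a b x
    simp only [hF, zpow_add, map_mul, MulAut.mul_apply, ofAdd_toAdd,
      MulEquiv.symm_apply_apply]
  have h0 : ∀ x, F 0 x = x := by
    intro x
    simp only [hF, zpow_zero, map_one, MulAut.one_apply, MulEquiv.apply_symm_apply,
      toAdd_ofAdd]
  obtain ⟨ξ, hξ⟩ := exists_not_on_orbit_lines (⟨0, by omega⟩ : Fin n) ⟨1, by omega⟩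
    (by simp [Fin.ext_iff]) F hmul h0 (S.image (fun s => Multiplicative.toAdd (e (v s))))
  obtain ⟨x, hxdef⟩ : ∃ x : N, x = e.symm (Multiplicative.ofAdd ξ) := ⟨_, rfl⟩
  obtain ⟨s, hs, m, hm⟩ := hS (x : H)
  obtain ⟨c, hc⟩ := isConj_iff.mp hm
  have hsN : s ^ m ∈ N := by
    rw [← hc]
    exact Subgroup.Normal.conj_mem inferInstance _ x.2 c
  obtain ⟨j, hj⟩ := hv s m hsN
  obtain ⟨k, hk⟩ := ht c⁻¹
  obtain ⟨y, hydef⟩ : ∃ y : N, y = ⟨c⁻¹ * t ^ k, hk⟩ := ⟨_, rfl⟩
  obtain ⟨z, hzdef⟩ : ∃ z : N, z = MulAut.conjNormal (t ^ (-k)) ((v s) ^ j) := ⟨_, rfl⟩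
  have hxz : x = y * z * y⁻¹ := by
    apply Subtype.ext
    rw [hydef, hzdef]
    simp only [Subgroup.coe_mul, Subgroup.coe_inv, MulAut.conjNormal_apply]
    rw [← hj, ← hc]
    group
  have hxz' : x = z := by rw [hxz, hcomm y z, mul_inv_cancel_right]
  have hξ' : ξ = j • F (-k) (Multiplicative.toAdd (e (v s))) := by
    have h1 : Multiplicative.toAdd (e x) = ξ := by
      rw [hxdef, MulEquiv.apply_symm_apply, toAdd_ofAdd]
    rw [← h1, hxz', hzdef, hF]
    simp only [ofAdd_toAdd, MulEquiv.symm_apply_apply, map_zpow, toAdd_zpow]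
  exact hξ _ (Finset.mem_image_of_mem _ hs) (-k) j hξ'

end Vale.Agent.Lib.P216
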