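import Vale.Agent.Lib.P216.TorusBundle

namespace Vale.Agent.Lib.P216

/-- A group with commutative multiplication that is a finite union of cyclic subgroups up to
conjugacy has a cyclic subgroup of finite index. -/
theorem exists_finiteIndex_zpowers_of_mul_comm {A : Type*} [Group A]
    (hc : ∀ x y : A, x * y = y * x) (hA : CyclicallyCovered A) :
    ∃ a : A, (Subgroup.zpowers a).FiniteIndex := by
  let _ : CommGroup A := { (inferInstance : Group A) with mul_comm := hc }
  exact exists_finiteIndex_zpowers_of_comm hA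

/-- A group that is a finite union of conjugates of cyclic subgroups and has a finite-index
subgroup `H = N * ⟨t⟩` with `N` normal in `H` and free abelian of finite rank is virtually
cyclic. -/
theorem virtually_cyclic_of_torus (G : Type*) [Group G] (hG : CyclicallyCovered G)
    (H : Subgroup G) [H.FiniteIndex] (N : Subgroup H) [N.Normal] (t : H)
    (ht : ∀ h : H, ∃ k : ℤ, h * t ^ k ∈ N) (n : ℕ)
    (e : N ≃* Multiplicative (Fin n → ℤ)) : ∃ g : G, (Subgroup.zpowers g).FiniteIndex := by
  classical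
  have hn : n ≤ 1 := torus_rank_le_one G hG H N t ht n e
  have hH : CyclicallyCovered H := hG.subgroup_of_finiteIndex H
  obtain ⟨a, ha⟩ : ∃ a : N, a = e.symm (Multiplicative.ofAdd (fun _ => (1 : ℤ))) := ⟨_, rfl⟩
  have hea : Multiplicative.toAdd (e a) = fun _ => (1 : ℤ) := by
    rw [ha, MulEquiv.apply_symm_apply, toAdd_ofAdd]
  have hgen : ∀ x : N, ∃ j : ℤ, x = a ^ j := by
    intro x
    by_cases h0 : 0 < n
    · refine ⟨Multiplicative.toAdd (e x) ⟨0, h0⟩, ?_⟩
      apply e.injective
      apply Multiplicative.toAdd.injective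
      rw [map_zpow, toAdd_zpow, hea]
      ext i
      have hi : i = ⟨0, h0⟩ := Fin.ext (by have := i.2; simp only; omega)
      simp [hi]
    · refine ⟨0, ?_⟩
      apply e.injective
      apply Multiplicative.toAdd.injective
      ext i
      exact absurd i.2 (by omega)
  have hn0 : ¬ 0 < n → a = 1 := by
    intro h0
    apply e.injective
    apply Multiplicative.toAdd.injective
    ext i
    exact absurd i.2 (by omega)
  have hn1 : 0 < n → ∀ m : ℤ, a ^ m = 1 → m = 0 := by
    intro h0 m hm
    have h1 := congrArg (fun z => Multiplicative.toAdd (e z) ⟨0, h0⟩) hm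
    simp only [map_zpow, toAdd_zpow, hea, map_one, toAdd_one, Pi.smul_apply, Pi.zero_apply,
      smul_eq_mul, mul_one] at h1
    exact h1
  obtain ⟨b, hb⟩ : ∃ b : H, b = (a : H) := ⟨_, rfl⟩
  have hbN : b ∈ N := by rw [hb]; exact a.2
  have hNb : ∀ x : H, x ∈ N → ∃ j : ℤ, x = b ^ j := by
    intro x hx
    obtain ⟨j, hj⟩ := hgen ⟨x, hx⟩
    refine ⟨j, ?_⟩
    have h1 := congrArg Subtype.val hj
    rw [hb]
    simpa using h1
  obtain ⟨p, hp⟩ := hNb _ (Subgroup.Normal.conj_mem inferInstance b hbN t)
  obtain ⟨q, hq⟩ := hNb (t⁻¹ * b * t) (by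
    have h1 := Subgroup.Normal.conj_mem (inferInstance : N.Normal) b hbN t⁻¹
    rwa [inv_inv] at h1)
  have hpq : b ^ (p * q) = b := by
    calc b ^ (p * q) = (b ^ p) ^ q := zpow_mul b p q
      _ = (t * b * t⁻¹) ^ q := by rw [hp]
      _ = t * b ^ q * t⁻¹ := conj_zpow
      _ = t * (t⁻¹ * b * t) * t⁻¹ := by rw [hq]
      _ = b := by group
  have hcomm : t ^ 2 * b = b * t ^ 2 := by
    by_cases h0 : 0 < n
    · have h1 : a ^ (p * q - 1) = 1 := by
        apply Subtype.ext
        simp only [Subgroup.coe_zpow, Subgroup.coe_one]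
        rw [← hb, zpow_sub, zpow_one, hpq, mul_inv_cancel]
      have h2 : p * q - 1 = 0 := hn1 h0 _ h1
      have h3 : p = 1 ∨ p = -1 := Int.eq_one_or_neg_one_of_mul_eq_one (v := q) (by linarith)
      have h4 : t ^ 2 * b * (t ^ 2)⁻¹ = b ^ (p * p) := by
        calc t ^ 2 * b * (t ^ 2)⁻¹ = t * (t * b * t⁻¹) * t⁻¹ := by
              rw [pow_two, mul_inv_rev]
              simp only [mul_assoc]
          _ = t * b ^ p * t⁻¹ := by rw [hp]
          _ = (t * b * t⁻¹) ^ p := conj_zpow.symm
          _ = (b ^ p) ^ p := by rw [hp]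
          _ = b ^ (p * p) := (zpow_mul b p p).symm
      have h5 : p * p = 1 := by
        rcases h3 with h | h <;> rw [h] <;> norm_num
      rw [h5, zpow_one] at h4
      calc t ^ 2 * b = t ^ 2 * b * (t ^ 2)⁻¹ * t ^ 2 := by group
        _ = b * t ^ 2 := by rw [h4]
    · have h1 : b = 1 := by rw [hb, hn0 h0]; rfl
      rw [h1, mul_one, one_mul]
  have hpair : ∀ x ∈ ({b, t ^ 2} : Set H), ∀ y ∈ ({b, t ^ 2} : Set H), x * y = y * x := by
    intro x hx y hy
    rcases hx with rfl | hx <;> rcases hy with rfl | hy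
    · rfl
    · rw [Set.mem_singleton_iff.mp hy]; exact hcomm.symm
    · rw [Set.mem_singleton_iff.mp hx]; exact hcomm
    · rw [Set.mem_singleton_iff.mp hx, Set.mem_singleton_iff.mp hy]
  obtain ⟨K, hKdef⟩ : ∃ K : Subgroup H, K = Subgroup.closure ({b, t ^ 2} : Set H) := ⟨_, rfl⟩
  have hKc : ∀ x y : K, x * y = y * x := by
    subst hKdef
    have hI := Subgroup.isMulCommutative_closure hpair
    exact fun x y => mul_comm' x y
  have hbK : b ∈ K := by
    rw [hKdef]; exact Subgroup.subset_closure (by simp)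
  have htK : t ^ 2 ∈ K := by
    rw [hKdef]; exact Subgroup.subset_closure (by simp)
  have hs : ∀ i : ℤ, t ^ (2 * i) = (t ^ 2) ^ i := fun i => by rw [zpow_mul, zpow_ofNat]
  have hcos : ∀ h : H, h ∈ K ∨ t⁻¹ * h ∈ K := by
    intro h
    obtain ⟨k, hk⟩ := ht h⁻¹
    obtain ⟨j, hj⟩ := hNb _ hk
    have hh : h = t ^ k * b ^ (-j) := by
      have h1 : h⁻¹ = b ^ j * (t ^ k)⁻¹ := by rw [← hj]; group
      calc h = (h⁻¹)⁻¹ := (inv_inv h).symm
        _ = t ^ k * b ^ (-j) := by rw [h1]; group
    rcases Int.even_or_odd' k with ⟨i, hi | hi⟩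
    · left
      rw [hh, hi, hs]
      exact K.mul_mem (K.zpow_mem htK i) (K.zpow_mem hbK (-j))
    · right
      have h2 : t⁻¹ * h = (t ^ 2) ^ i * b ^ (-j) := by
        rw [hh, hi, ← hs, zpow_add, zpow_one]; group
      rw [h2]
      exact K.mul_mem (K.zpow_mem htK i) (K.zpow_mem hbK (-j))
  have hfinK : K.FiniteIndex := by
    have hfin : Finite (H ⧸ K) := by
      apply Finite.of_surjective
        (fun c : Bool => if c then ((1 : H) : H ⧸ K) else ((t : H) : H ⧸ K))
      intro x
      induction x using QuotientGroup.induction_on with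
      | H h =>
        rcases hcos h with hh | hh
        · refine ⟨true, ?_⟩
          simp only [if_true]
          exact QuotientGroup.eq.mpr (by simpa using hh)
        · refine ⟨false, ?_⟩
          simp only [Bool.false_eq_true, if_false]
          exact QuotientGroup.eq.mpr hh
    exact Subgroup.finiteIndex_of_finite_quotient
  have hK : CyclicallyCovered K := hH.subgroup_of_finiteIndex K
  obtain ⟨g, hg⟩ := exists_finiteIndex_zpowers_of_mul_comm hKc hK
  refine ⟨((g : H) : G), ?_⟩
  have h1 : Subgroup.zpowers ((g : H) : G)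
      = ((Subgroup.zpowers g).map K.subtype).map H.subtype := by
    rw [MonoidHom.map_zpowers, MonoidHom.map_zpowers]
    rfl
  rw [h1]
  constructor
  rw [Subgroup.index_map_subtype, Subgroup.index_map_subtype]
  exact mul_ne_zero (mul_ne_zero hg.index_ne_zero hfinK.index_ne_zero)
    (Subgroup.FiniteIndex.index_ne_zero (H := H))

end Vale.Agent.Lib.P216
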